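import Mathlib

/-!
The pattern, the index type and the tree matrix.
-/

namespace Vale.Agent.P037

/-- The forbidden pattern. -/
def pat : Fin 5 → Fin 5 → Bool :=
  ![![true, true, true, false, true], ![true, true, false, true, false],
    ![true, false, true, true, true], ![false, true, true, false, true],
    ![true, false, true, true, true]]

theorem pat_symm : ∀ i j, pat i j = pat j i := by decide

/-- Certificate: three kinds of step at a level and side, or the final one. -/
abbrev Cert (D : ℕ) := Option (Fin 3 × Fin D × Bool)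

/-- Exchange of the two one-sided steps. -/
def swapK : Fin 3 → Fin 3 := ![1, 0, 2]

theorem swapK_swapK : ∀ m, swapK (swapK m) = m := by decide

/-- Transposition of certificates. -/
def flipC {D : ℕ} : Cert D → Cert D
  | none => none
  | some (m, g, σ) => some (swapK m, g, σ)

theorem flipC_flipC {D : ℕ} (t : Cert D) : flipC (flipC t) = t := by
  rcases t with _ | ⟨m, g, σ⟩
  · rfl
  · simp [flipC, swapK_swapK]

/-- Kinds of rows and of columns. -/
inductive Desc (D : ℕ) where
  | mark (role : Bool) (t : Cert D)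
  | ul
  | ur
  | wild
  | node (g : Fin (D + 1)) (e : Bool)

/-- Coding of kinds. -/
def descEquiv (D : ℕ) : Desc D ≃ (Bool × Cert D) ⊕ (Fin 3 ⊕ (Fin (D + 1) × Bool)) where
  toFun := fun
    | .mark r t => .inl (r, t)
    | .ul => .inr (.inl 0)
    | .ur => .inr (.inl 1)
    | .wild => .inr (.inl 2)
    | .node g e => .inr (.inr (g, e))
  invFun := fun
    | .inl (r, t) => .mark r t
    | .inr (.inl i) => if i = 0 then .ul else if i = 1 then .ur else .wild
    | .inr (.inr (g, e)) => .node g e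
  left_inv := by intro d; cases d <;> simp
  right_inv := by
    intro s
    rcases s with ⟨r, t⟩ | i | ⟨g, e⟩
    · rfl
    · fin_cases i <;> simp
    · rfl

instance (D : ℕ) : Fintype (Desc D) := Fintype.ofEquiv _ (descEquiv D).symm

noncomputable instance (D : ℕ) : DecidableEq (Desc D) := Classical.decEq _

theorem card_desc (D : ℕ) : Fintype.card (Desc D) = 14 * D + 7 := by
  rw [Fintype.card_congr (descEquiv D)]
  simp [Fintype.card_sum, Fintype.card_prod, Fintype.card_option]
  ring

/-- A row or column: a kind and a slot. -/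
structure Idx (D : ℕ) where
  /-- The kind. -/
  d : Desc D
  /-- The slot. -/
  s : Fin (2 ^ D)

/-- Coding of indices. -/
def idxEquiv (D : ℕ) : Idx D ≃ Desc D × Fin (2 ^ D) where
  toFun a := (a.d, a.s)
  invFun p := ⟨p.1, p.2⟩
  left_inv := fun _ => rfl
  right_inv := fun _ => rfl

instance (D : ℕ) : Fintype (Idx D) := Fintype.ofEquiv _ (idxEquiv D).symm

theorem card_idx (D : ℕ) : Fintype.card (Idx D) = (14 * D + 7) * 2 ^ D := by
  rw [Fintype.card_congr (idxEquiv D), Fintype.card_prod, card_desc, Fintype.card_fin]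

variable {D : ℕ}

/-- The level `g` node containing a leaf. -/
def nd (g : ℕ) (s : Fin (2 ^ D)) : ℕ := s.val / 2 ^ (D - g)

theorem nd_succ {g : ℕ} (hg : g < D) (s : Fin (2 ^ D)) : nd (g + 1) s / 2 = nd g s := by
  unfold nd
  rw [Nat.div_div_eq_div_mul, ← pow_succ, show D - (g + 1) + 1 = D - g by omega]

theorem nd_lt {g : ℕ} (hg : g ≤ D) (s : Fin (2 ^ D)) : nd g s < 2 ^ g := by
  unfold nd
  rw [Nat.div_lt_iff_lt_mul (Nat.two_pow_pos _), ← pow_add, Nat.add_sub_cancel' hg]
  exact s.isLt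

theorem nd_last (s : Fin (2 ^ D)) : nd D s = s.val := by simp [nd]

theorem nd_zero (s : Fin (2 ^ D)) : nd 0 s = 0 := by simp [nd]

/-- Two nodes see each other. -/
def Adj (D g i g' i' : ℕ) : Prop :=
  (g = g' ∧ i = i' ∧ g < D) ∨ (g' = g + 1 ∧ i' / 2 = i) ∨ (g = g' + 1 ∧ i / 2 = i')

theorem Adj.symm {D g i g' i' : ℕ} (h : Adj D g i g' i') : Adj D g' i' g i := by
  rcases h with ⟨rfl, rfl, h⟩ | h | h
  · exact Or.inl ⟨rfl, rfl, h⟩
  · exact Or.inr (Or.inr h)
  · exact Or.inr (Or.inl h)

/-- Classes that a certificate can name. -/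
inductive Code where
  | lev (g : ℕ)
  | mid (g : ℕ) (σ : Bool)
  | fin
  | fill

/-- Membership in a class. -/
def Mem : Code → Idx D → Prop
  | .lev g, ⟨.node g' _, _⟩ => g'.val = g ∧ g < D
  | .mid g σ, ⟨.node g' _, s⟩ => g'.val = g + 1 ∧ decide (nd (g + 1) s % 2 = 1) = σ
  | .fin, ⟨.node g' _, _⟩ => g'.val = D
  | .fin, ⟨.wild, _⟩ => True
  | .fill, ⟨.ul, _⟩ => True
  | .fill, ⟨.ur, _⟩ => True
  | _, _ => False

/-- The class named by a role of a certificate. -/
def code : Bool → Cert D → Code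
  | false, none => .fin
  | true, none => .fill
  | false, some (m, g, _) => if m = 1 then .fill else .lev g.val
  | true, some (m, g, σ) => if m = 1 then .lev g.val else .mid g.val σ

/-- When an entry is one. -/
def One : Idx D → Idx D → Prop
  | ⟨.mark _ t, _⟩, ⟨.mark _ t', _⟩ => t' = flipC t
  | ⟨.mark r t, _⟩, y => Mem (code r t) y
  | x, ⟨.mark r t, _⟩ => Mem (code r t) x
  | ⟨.node g _, s⟩, ⟨.node g' _, s'⟩ => Adj D g.val (nd g.val s) g'.val (nd g'.val s')
  | ⟨.wild, _⟩, _ => True
  | _, ⟨.wild, _⟩ => True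
  | ⟨.node _ _, _⟩, _ => True
  | _, ⟨.node _ _, _⟩ => True
  | _, _ => False

theorem One.symm {x y : Idx D} (h : One x y) : One y x := by
  obtain ⟨dx, sx⟩ := x
  obtain ⟨dy, sy⟩ := y
  cases dx <;> cases dy <;> simp only [One] at h ⊢ <;>
    first
      | exact h
      | (rw [h, flipC_flipC])
      | exact Adj.symm h
      | trivial

open Classical in
/-- The matrix. -/
noncomputable def ent (x y : Idx D) : Bool := decide (One x y)

theorem ent_comm (x y : Idx D) : ent x y = ent y x := by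
  unfold ent
  exact decide_eq_decide.2 ⟨One.symm, One.symm⟩

/-- Scale of positions. -/
def big (D : ℕ) : ℕ := 2 * D + 4

/-- Zone of a kind and slot. -/
def zk : Idx D → ℕ
  | ⟨.mark r _, _⟩ => if r then 1 else 0
  | ⟨.ul, _⟩ => 2
  | ⟨.node g e, s⟩ =>
    if e then 3 + ((nd g.val s + 1) * (big D * 2 ^ (D - g.val)) - (g.val + 1))
    else 3 + (nd g.val s * (big D * 2 ^ (D - g.val)) + g.val)
  | ⟨.ur, _⟩ => 4 + big D * 2 ^ D
  | ⟨.wild, _⟩ => 5 + big D * 2 ^ D

/-- An injective position refining the zones. -/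
noncomputable def pos (x : Idx D) : ℕ :=
  zk x * Fintype.card (Idx D) + (Fintype.equivFin (Idx D) x).val

theorem pos_injective : Function.Injective (pos (D := D)) := by
  intro x y h
  have hx := (Fintype.equivFin (Idx D) x).isLt
  have hy := (Fintype.equivFin (Idx D) y).isLt
  unfold pos at h
  apply (Fintype.equivFin (Idx D)).injective
  apply Fin.ext
  have h1 := congrArg (fun m => m % Fintype.card (Idx D)) h
  simp only [Nat.mul_add_mod', Nat.mod_eq_of_lt hx, Nat.mod_eq_of_lt hy] at h1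
  exact h1

noncomputable instance (D : ℕ) : LinearOrder (Idx D) := LinearOrder.lift' pos pos_injective

theorem zk_mono {x y : Idx D} (h : x < y) : zk x ≤ zk y := by
  have hy := (Fintype.equivFin (Idx D) y).isLt
  have h' : pos x < pos y := h
  unfold pos at h'
  by_contra hc
  have h2 : (zk y + 1) * Fintype.card (Idx D) ≤ zk x * Fintype.card (Idx D) :=
    Nat.mul_le_mul_right _ (by omega)
  rw [Nat.succ_mul] at h2
  omega

theorem lt_of_zk {x y : Idx D} (h : zk x < zk y) : x < y := by
  have hx := (Fintype.equivFin (Idx D) x).isLt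
  show pos x < pos y
  unfold pos
  have h2 : (zk x + 1) * Fintype.card (Idx D) ≤ zk y * Fintype.card (Idx D) :=
    Nat.mul_le_mul_right _ (by omega)
  rw [Nat.succ_mul] at h2
  omega

/-- Position interval of a node. -/
theorem zk_node (g : Fin (D + 1)) (e : Bool) (s : Fin (2 ^ D)) :
    3 + nd g.val s * (big D * 2 ^ (D - g.val)) ≤ zk ⟨.node g e, s⟩ ∧
      zk ⟨.node g e, s⟩ + 1 ≤ 3 + (nd g.val s + 1) * (big D * 2 ^ (D - g.val)) := by
  have hg := g.isLt
  have hb : 2 * g.val + 2 ≤ big D * 2 ^ (D - g.val) :=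
    le_trans (by unfold big; omega) (Nat.le_mul_of_pos_right _ (Nat.two_pow_pos _))
  cases e <;>
  · simp only [zk, if_true, if_false, Bool.false_eq_true]
    rw [Nat.succ_mul]
    omega

theorem zk_node_lt (g : Fin (D + 1)) (e : Bool) (s : Fin (2 ^ D)) :
    zk ⟨.node g e, s⟩ < 3 + big D * 2 ^ D := by
  have h := (zk_node g e s).2
  have hle : (nd g.val s + 1) * (big D * 2 ^ (D - g.val)) ≤ big D * 2 ^ D := by
    calc (nd g.val s + 1) * (big D * 2 ^ (D - g.val))
        ≤ 2 ^ g.val * (big D * 2 ^ (D - g.val)) :=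
          Nat.mul_le_mul_right _ (nd_lt (Nat.le_of_lt_succ g.isLt) s)
      _ = big D * (2 ^ g.val * 2 ^ (D - g.val)) := by ring
      _ = big D * 2 ^ D := by rw [← pow_add, Nat.add_sub_cancel' (Nat.le_of_lt_succ g.isLt)]
  omega

theorem zk_node_ge (g : Fin (D + 1)) (e : Bool) (s : Fin (2 ^ D)) :
    3 ≤ zk ⟨.node g e, s⟩ := by
  have := (zk_node g e s).1
  omega

/-- A child that lies between two rows of one node is a child of that node. -/
theorem between {g : ℕ} (hg : g < D) {g₁ g' g₂ : Fin (D + 1)} {e₁ e' e₂ : Bool}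
    {s₁ s' s₂ : Fin (2 ^ D)} (h₁ : g₁.val = g) (h' : g'.val = g + 1) (h₂ : g₂.val = g)
    (hsame : nd g s₁ = nd g s₂)
    (hl : zk ⟨.node g₁ e₁, s₁⟩ ≤ zk ⟨.node g' e', s'⟩)
    (hr : zk ⟨.node g' e', s'⟩ ≤ zk ⟨.node g₂ e₂, s₂⟩) :
    nd (g + 1) s' / 2 = nd g s₁ := by
  have a1 := (zk_node g₁ e₁ s₁).1
  have a2 := (zk_node g₂ e₂ s₂).2
  have b1 := (zk_node g' e' s').1
  have b2 := (zk_node g' e' s').2
  rw [h₁] at a1
  rw [h₂] at a2
  rw [h'] at b1 b2
  rw [← hsame] at a2
  set W := big D * 2 ^ (D - (g + 1)) with hW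
  have e2 : big D * 2 ^ (D - g) = 2 * W := by
    rw [hW, show D - g = D - (g + 1) + 1 by omega, pow_succ]; ring
  rw [e2] at a1 a2
  set P := nd g s₁
  set I := nd (g + 1) s'
  have u1 : 2 * P * W < (I + 1) * W := by nlinarith
  have u2 : I * W < (2 * P + 2) * W := by nlinarith
  have v1 := lt_of_mul_lt_mul_right u1 (Nat.zero_le W)
  have v2 := lt_of_mul_lt_mul_right u2 (Nat.zero_le W)
  omega

end Vale.Agent.P037
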