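import Mathlib
import Vale.Agent.P037.Tree

/-!
Every copy in the tree matrix uses two equal leaves at its middle position.
-/

namespace Vale.Agent.P037

variable {D : ℕ}

theorem one_le_fin : ∀ {i : Fin 5}, i ≠ 0 → 1 ≤ i := by decide

/-- A marker row or column. -/
def IsMark (x : Idx D) : Prop := ∃ r t, x.d = Desc.mark r t

theorem not_mark_zk {x : Idx D} (h : ¬ IsMark x) : 2 ≤ zk x := by
  obtain ⟨d, s⟩ := x
  cases d with
  | mark r t => exact absurd ⟨r, t, rfl⟩ h
  | ul => simp [zk]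
  | ur => simp [zk]; omega
  | wild => simp [zk]; omega
  | node g e => exact le_trans (by norm_num) (zk_node_ge g e s)

theorem mark_zk {x : Idx D} (h : IsMark x) : zk x ≤ 1 := by
  obtain ⟨d, s⟩ := x
  obtain ⟨r, t, rfl⟩ := h
  cases r <;> simp [zk]

theorem mark_of_le {x y : Idx D} (h : IsMark y) (hxy : x < y) : IsMark x := by
  by_contra hx
  have := not_mark_zk hx
  have := zk_mono hxy
  have := mark_zk h
  omega

theorem ent_true {x y : Idx D} : ent x y = true ↔ One x y := by simp [ent]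

theorem ent_false {x y : Idx D} : ent x y = false ↔ ¬ One x y := by simp [ent]

theorem one_mark_mark {x y : Idx D} {r r' : Bool} {t t' : Cert D} (hx : x.d = .mark r t)
    (hy : y.d = .mark r' t') : One x y ↔ t' = flipC t := by
  obtain ⟨dx, sx⟩ := x
  obtain ⟨dy, sy⟩ := y
  cases hx
  cases hy
  simp [One]

theorem one_mark_slot {x y : Idx D} {r : Bool} {t : Cert D} (hx : x.d = .mark r t)
    (hy : ¬ IsMark y) : One x y ↔ Mem (code r t) y := by
  obtain ⟨dx, sx⟩ := x
  obtain ⟨dy, sy⟩ := y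
  cases hx
  cases dy <;> first | exact absurd ⟨_, _, rfl⟩ hy | simp [One]

theorem one_slot_mark {x y : Idx D} {r : Bool} {t : Cert D} (hy : y.d = .mark r t)
    (hx : ¬ IsMark x) : One x y ↔ Mem (code r t) x :=
  ⟨fun h => (one_mark_slot hy hx).1 (One.symm h), fun h => One.symm ((one_mark_slot hy hx).2 h)⟩

theorem nested {c c' : Code} {x : Idx D} (hx : Mem c x) (hx' : Mem c' x) :
    (∀ y : Idx D, Mem c y → Mem c' y) ∨ ∀ y : Idx D, Mem c' y → Mem c y := by
  obtain ⟨dx, sx⟩ := x
  cases c <;> cases c' <;> cases dx <;> simp only [Mem] at hx hx' <;>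
    first
      | exact Or.inl fun _ h => h
      | (obtain ⟨h1, h2⟩ := hx; obtain ⟨h3, h4⟩ := hx'
         first
           | (refine Or.inl fun y hy => ?_
              obtain ⟨dy, sy⟩ := y
              cases dy <;> simp only [Mem] at hy ⊢
              obtain ⟨h5, h6⟩ := hy
              first
                | exact ⟨by omega, by omega⟩
                | (refine ⟨by omega, ?_⟩
                   obtain rfl := Nat.succ_injective (h1.symm.trans h3)
                   rw [h6, ← h2, h4]))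
           | (refine Or.inr fun y hy => ?_
              obtain ⟨dy, sy⟩ := y
              cases dy <;> simp only [Mem] at hy ⊢
              obtain ⟨h5, h6⟩ := hy
              exact ⟨by omega, by omega⟩))
      | (obtain ⟨h1, h2⟩ := hx
         first
           | omega
           | (refine Or.inl fun y hy => ?_
              obtain ⟨dy, sy⟩ := y
              cases dy <;> simp only [Mem] at hy ⊢
              all_goals (obtain ⟨h5, h6⟩ := hy; omega)))
      | (obtain ⟨h3, h4⟩ := hx'
         first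
           | omega
           | (refine Or.inr fun y hy => ?_
              obtain ⟨dy, sy⟩ := y
              cases dy <;> simp only [Mem] at hy ⊢
              all_goals (obtain ⟨h5, h6⟩ := hy; omega)))

theorem low_slot {x : Idx D} (h : ¬ IsMark x) (hz : zk x ≤ 2) : x.d = .ul := by
  obtain ⟨d, s⟩ := x
  cases d with
  | mark r t => exact absurd ⟨r, t, rfl⟩ h
  | ul => rfl
  | ur => simp [zk] at hz; omega
  | wild => simp [zk] at hz; omega
  | node g e => have := zk_node_ge g e s; omega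

theorem high_slot {x : Idx D} (hw : x.d ≠ .wild) (hz : 4 + big D * 2 ^ D ≤ zk x) : x.d = .ur := by
  obtain ⟨d, s⟩ := x
  cases d with
  | mark r t => have := mark_zk (x := (⟨.mark r t, s⟩ : Idx D)) ⟨r, t, rfl⟩; omega
  | ul => simp [zk] at hz; omega
  | ur => rfl
  | wild => exact absurd rfl hw
  | node g e => have := zk_node_lt g e s; omega

theorem fill_same {x x' y : Idx D} (hx : x.d = .ul ∨ x.d = .ur) (hx' : x'.d = .ul ∨ x'.d = .ur)
    (hy : ¬ IsMark y) : ent x y = ent x' y := by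
  obtain ⟨dx, sx⟩ := x
  obtain ⟨dx', sx'⟩ := x'
  obtain ⟨dy, sy⟩ := y
  cases dy with
  | mark r t => exact absurd ⟨r, t, rfl⟩ hy
  | _ =>
    rw [Bool.eq_iff_iff, ent_true, ent_true]
    rcases hx with rfl | rfl <;> rcases hx' with rfl | rfl <;> simp [One]

theorem wild_one {x y : Idx D} (hx : x.d = .wild) (hy : ¬ IsMark y) : ent x y = true := by
  obtain ⟨dx, sx⟩ := x
  obtain ⟨dy, sy⟩ := y
  cases hx
  cases dy <;> first | exact absurd ⟨_, _, rfl⟩ hy | simp [ent_true, One]

theorem fill_node {x y : Idx D} (hx : x.d = .ul ∨ x.d = .ur) {g : Fin (D + 1)} {e : Bool}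
    (hy : y.d = .node g e) : ent x y = true := by
  obtain ⟨dx, sx⟩ := x
  obtain ⟨dy, sy⟩ := y
  cases hy
  rcases hx with rfl | rfl <;> simp [ent_true, One]

theorem node_of {x : Idx D} (h : ¬ IsMark x) (h1 : x.d ≠ .ul) (h2 : x.d ≠ .ur)
    (h3 : x.d ≠ .wild) : ∃ g e, x.d = .node g e := by
  obtain ⟨d, s⟩ := x
  cases d with
  | mark r t => exact absurd ⟨r, t, rfl⟩ h
  | ul => exact absurd rfl h1
  | ur => exact absurd rfl h2
  | wild => exact absurd rfl h3
  | node g e => exact ⟨g, e, rfl⟩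

/-- Second and third slot rows are nodes. -/
theorem side_nodes {r c : Fin 5 → Idx D} (hr : StrictMono r)
    (hp : ∀ i j, ent (r i) (c j) = pat i j) (nr : ∀ i : Fin 5, i ≠ 0 → ¬ IsMark (r i))
    (nc : ∀ i : Fin 5, i ≠ 0 → ¬ IsMark (c i)) :
    (∃ g e, (r 2).d = .node g e) ∧ (∃ g e, (r 3).d = .node g e) ∧ (r 1).d ≠ .wild := by
  have hw : ∀ i j : Fin 5, j ≠ 0 → pat i j = false → (r i).d ≠ .wild := by
    intro i j hj hf h
    have := wild_one h (nc j hj)
    rw [hp i j, hf] at this
    exact Bool.noConfusion this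
  have hdiff : ∀ i i' j : Fin 5, j ≠ 0 → pat i j ≠ pat i' j →
      ((r i).d = .ul ∨ (r i).d = .ur) → ((r i').d = .ul ∨ (r i').d = .ur) → False := by
    intro i i' j hj hne h h'
    apply hne
    rw [← hp i j, ← hp i' j]
    exact fill_same h h' (nc j hj)
  have l12 : zk (r 1) ≤ zk (r 2) := zk_mono (hr (by decide))
  have l23 : zk (r 2) ≤ zk (r 3) := zk_mono (hr (by decide))
  have l34 : zk (r 3) ≤ zk (r 4) := zk_mono (hr (by decide))
  have zl : ∀ {x : Idx D}, x.d = .ul → zk x = 2 := by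
    rintro ⟨d, s⟩ rfl; simp [zk]
  have zr : ∀ {x : Idx D}, x.d = .ur → zk x = 4 + big D * 2 ^ D := by
    rintro ⟨d, s⟩ rfl; simp [zk]
  refine ⟨node_of (nr 2 (by decide)) (fun h => ?_) (fun h => ?_) (hw 2 1 (by decide) (by decide)),
    node_of (nr 3 (by decide)) (fun h => ?_) (fun h => ?_) (hw 3 3 (by decide) (by decide)),
    hw 1 2 (by decide) (by decide)⟩
  · exact hdiff 2 1 1 (by decide) (by decide) (Or.inl h)
      (Or.inl (low_slot (nr 1 (by decide)) (l12.trans (zl h).le)))
  · exact hdiff 2 3 1 (by decide) (by decide) (Or.inr h)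
      (Or.inr (high_slot (hw 3 3 (by decide) (by decide)) ((zr h).ge.trans l23)))
  · exact hdiff 3 2 1 (by decide) (by decide) (Or.inl h)
      (Or.inl (low_slot (nr 2 (by decide)) (l23.trans (zl h).le)))
  · exact hdiff 3 4 3 (by decide) (by decide) (Or.inr h)
      (Or.inr (high_slot (hw 4 1 (by decide) (by decide)) ((zr h).ge.trans l34)))

theorem first_node {r c : Fin 5 → Idx D} (hp : ∀ i j, ent (r i) (c j) = pat i j)
    (nr : ¬ IsMark (r 1)) (hw : (r 1).d ≠ .wild) (h2 : ∃ g e, (c 2).d = .node g e) :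
    ∃ g e, (r 1).d = .node g e := by
  obtain ⟨g, e, hg⟩ := h2
  refine node_of nr (fun h => ?_) (fun h => ?_) hw
  · have := fill_node (Or.inl h) hg
    rw [hp 1 2] at this
    exact absurd this (by decide)
  · have := fill_node (Or.inr h) hg
    rw [hp 1 2] at this
    exact absurd this (by decide)

theorem hex_tip {gz iz ga ia gb ib gu iu gv iv : ℕ} (za : Adj D gz iz ga ia)
    (zb : Adj D gz iz gb ib) (ua : Adj D gu iu ga ia) (vb : Adj D gv iv gb ib)
    (ub : ¬ Adj D gu iu gb ib) (va : ¬ Adj D gv iv ga ia)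
    (la : ga ≤ gz) (lb : gb ≤ gz) (lu : gu ≤ gz) (lv : gv ≤ gz) : False := by
  unfold Adj at *
  rcases za with ⟨rfl, rfl, hz⟩ | ⟨e1, -⟩ | ⟨e1, e2⟩
  · rcases zb with ⟨rfl, rfl, -⟩ | ⟨e1, -⟩ | ⟨e1, e2⟩
    · exact ub ua
    · omega
    · rcases ua with ⟨rfl, rfl, -⟩ | ⟨e3, e4⟩ | ⟨e3, -⟩
      · exact ub (Or.inr (Or.inr ⟨e1, e2⟩))
      · exact ub (Or.inl ⟨by omega, by omega, by omega⟩)
      · omega
  · omega
  · rcases zb with ⟨rfl, rfl, hz⟩ | ⟨e3, -⟩ | ⟨e3, e4⟩
    · rcases vb with ⟨rfl, rfl, -⟩ | ⟨e5, e6⟩ | ⟨e5, -⟩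
      · exact va (Or.inr (Or.inr ⟨e1, e2⟩))
      · exact va (Or.inl ⟨by omega, by omega, by omega⟩)
      · omega
    · omega
    · obtain rfl : ga = gb := by omega
      obtain rfl : ia = ib := e2.symm.trans e4
      exact ub ua

theorem slots_absurd {r c : Fin 5 → Idx D} (hr : StrictMono r) (hc : StrictMono c)
    (hp : ∀ i j, ent (r i) (c j) = pat i j) (hc1 : ¬ IsMark (c 1)) : False := by
  have nc : ∀ i : Fin 5, i ≠ 0 → ¬ IsMark (c i) := by
    intro i hi h
    rcases eq_or_lt_of_le (one_le_fin hi) with rfl | h1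
    · exact hc1 h
    · exact hc1 (mark_of_le h (hc h1))
  by_cases hr1 : IsMark (r 1)
  · obtain ⟨a1, t1, e1⟩ := hr1
    obtain ⟨a0, t0, e0⟩ := mark_of_le ⟨a1, t1, e1⟩ (hr (show (0 : Fin 5) < 1 by decide))
    have f0 : ∀ j : Fin 5, j ≠ 0 → (Mem (code a0 t0) (c j) ↔ pat 0 j = true) := fun j hj => by
      rw [← one_mark_slot e0 (nc j hj), ← ent_true, hp]
    have f1 : ∀ j : Fin 5, j ≠ 0 → (Mem (code a1 t1) (c j) ↔ pat 1 j = true) := fun j hj => by
      rw [← one_mark_slot e1 (nc j hj), ← ent_true, hp]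
    rcases nested ((f0 1 (by decide)).2 (by decide)) ((f1 1 (by decide)).2 (by decide)) with h | h
    · exact absurd ((f1 2 (by decide)).1 (h _ ((f0 2 (by decide)).2 (by decide)))) (by decide)
    · exact absurd ((f0 3 (by decide)).1 (h _ ((f1 3 (by decide)).2 (by decide)))) (by decide)
  have nr : ∀ i : Fin 5, i ≠ 0 → ¬ IsMark (r i) := by
    intro i hi h
    rcases eq_or_lt_of_le (one_le_fin hi) with rfl | h1
    · exact hr1 h
    · exact hr1 (mark_of_le h (hr h1))
  have hp' : ∀ i j, ent (c i) (r j) = pat i j := fun i j => by rw [ent_comm, hp, pat_symm]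
  obtain ⟨r2, r3, wr⟩ := side_nodes hr hp nr nc
  obtain ⟨c2, c3, wc⟩ := side_nodes hc hp' nc nr
  have r1 := first_node hp hr1 wr c2
  have c1 := first_node hp' hc1 wc r2
  obtain ⟨g1, x1, R1⟩ := r1
  obtain ⟨g2, x2, R2⟩ := r2
  obtain ⟨g3, x3, R3⟩ := r3
  obtain ⟨k1, y1, C1⟩ := c1
  obtain ⟨k2, y2, C2⟩ := c2
  obtain ⟨k3, y3, C3⟩ := c3
  have adj : ∀ {i j : Fin 5} {g g' : Fin (D + 1)} {e e' : Bool}, (r i).d = .node g e →
      (c j).d = .node g' e' →
      (Adj D g.val (nd g.val (r i).s) g'.val (nd g'.val (c j).s) ↔ pat i j = true) := by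
    intro i j g g' e e' hi hj
    rw [← hp i j, ent_true]
    cases hri : r i with
    | mk d s =>
      cases hcj : c j with
      | mk d' s' =>
        rw [hri] at hi
        rw [hcj] at hj
        cases hi
        cases hj
        simp [One]
  have a11 := (adj R1 C1).2 (by decide)
  have a13 := (adj R1 C3).2 (by decide)
  have a22 := (adj R2 C2).2 (by decide)
  have a23 := (adj R2 C3).2 (by decide)
  have a31 := (adj R3 C1).2 (by decide)
  have a32 := (adj R3 C2).2 (by decide)
  have b12 : ¬ _ := fun h => absurd ((adj R1 C2).1 h) (by decide)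
  have b21 : ¬ _ := fun h => absurd ((adj R2 C1).1 h) (by decide)
  have b33 : ¬ _ := fun h => absurd ((adj R3 C3).1 h) (by decide)
  set M := max (max (max g1.val g2.val) g3.val) (max (max k1.val k2.val) k3.val) with hM
  have q1 : g1.val ≤ M := by omega
  have q2 : g2.val ≤ M := by omega
  have q3 : g3.val ≤ M := by omega
  have p1 : k1.val ≤ M := by omega
  have p2 : k2.val ≤ M := by omega
  have p3 : k3.val ≤ M := by omega
  rcases (show M = g1.val ∨ M = g2.val ∨ M = g3.val ∨ M = k1.val ∨ M = k2.val ∨ M = k3.val by omega)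
    with h | h | h | h | h | h
  · exact hex_tip a11 a13 a31 a23 b33 b21 (by omega) (by omega) (by omega) (by omega)
  · exact hex_tip a22 a23 a32 a13 b33 b12 (by omega) (by omega) (by omega) (by omega)
  · exact hex_tip a31 a32 a11 a22 b12 b21 (by omega) (by omega) (by omega) (by omega)
  · exact hex_tip a11.symm a31.symm a13.symm a32.symm (fun e => b33 e.symm) (fun e => b12 e.symm)
      (by omega) (by omega) (by omega) (by omega)
  · exact hex_tip a22.symm a32.symm a23.symm a31.symm (fun e => b33 e.symm) (fun e => b21 e.symm)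
      (by omega) (by omega) (by omega) (by omega)
  · exact hex_tip a13.symm a23.symm a11.symm a22.symm (fun e => b21 e.symm) (fun e => b12 e.symm)
      (by omega) (by omega) (by omega) (by omega)

/-- Two slots certified by both roles of one certificate are not markers. -/
theorem certified {r c : Fin 5 → Idx D} (hr : StrictMono r) (hp : ∀ i j, ent (r i) (c j) = pat i j)
    (h1 : IsMark (r 1)) (hc1 : IsMark (c 1)) :
    ∃ t : Cert D, (∀ j : Fin 5, 2 ≤ j → ¬ IsMark (c j)) ∧
      (∀ a u, (c 1).d = Desc.mark a u → u = flipC t) ∧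
      (r 0).d = Desc.mark false t ∧ (r 1).d = Desc.mark true t := by
  obtain ⟨a1, t, e1⟩ := h1
  obtain ⟨a0, t0, e0⟩ := mark_of_le ⟨a1, t, e1⟩ (hr (show (0 : Fin 5) < 1 by decide))
  obtain ⟨b, u, ec⟩ := hc1
  have k1 : u = flipC t := (one_mark_mark e1 ec).1 (ent_true.1 (by rw [hp]; decide))
  have k0 : u = flipC t0 := (one_mark_mark e0 ec).1 (ent_true.1 (by rw [hp]; decide))
  have ht : t0 = t := by rw [← flipC_flipC t0, ← k0, k1, flipC_flipC]
  subst ht
  have hne : ∀ j : Fin 5, 2 ≤ j → pat 0 j ≠ pat 1 j := by decide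
  have nc : ∀ j : Fin 5, 2 ≤ j → ¬ IsMark (c j) := by
    intro j hj hm
    obtain ⟨b', u', ej⟩ := hm
    apply hne j hj
    rw [← hp, ← hp, ent, ent, decide_eq_decide, one_mark_mark e0 ej, one_mark_mark e1 ej]
  have hz := zk_mono (hr (show (0 : Fin 5) < 1 by decide))
  have hrole : a0 = false ∧ a1 = true := by
    cases a0 <;> cases a1
    · exfalso
      apply hne 2 le_rfl
      rw [← hp, ← hp, ent, ent, decide_eq_decide, one_mark_slot e0 (nc 2 le_rfl),
        one_mark_slot e1 (nc 2 le_rfl)]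
    · exact ⟨rfl, rfl⟩
    · exfalso
      have z0 : zk (r 0) = 1 := by
        rcases hr0 : r 0 with ⟨d, s⟩; rw [hr0] at e0; cases e0; simp [zk]
      have z1 : zk (r 1) = 0 := by
        rcases hr1 : r 1 with ⟨d, s⟩; rw [hr1] at e1; cases e1; simp [zk]
      omega
    · exfalso
      apply hne 2 le_rfl
      rw [← hp, ← hp, ent, ent, decide_eq_decide, one_mark_slot e0 (nc 2 le_rfl),
        one_mark_slot e1 (nc 2 le_rfl)]
  obtain ⟨rfl, rfl⟩ := hrole
  exact ⟨t0, nc, fun a v hv => by rw [ec] at hv; cases hv; exact k1, e0, e1⟩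

theorem mem_lev {g : ℕ} {x : Idx D} (h : Mem (.lev g) x) :
    ∃ l e, x.d = .node l e ∧ l.val = g ∧ g < D := by
  obtain ⟨d, s⟩ := x
  cases d <;> simp only [Mem] at h
  exact ⟨_, _, rfl, h.1, h.2⟩

theorem mem_mid {g : ℕ} {σ : Bool} {x : Idx D} (h : Mem (.mid g σ) x) :
    ∃ l e, x.d = .node l e ∧ l.val = g + 1 ∧ decide (nd (g + 1) x.s % 2 = 1) = σ := by
  obtain ⟨d, s⟩ := x
  cases d <;> simp only [Mem] at h
  exact ⟨_, _, rfl, h.1, h.2⟩

theorem mem_fin_zk {x : Idx D} (h : Mem .fin x) :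
    (∃ l e, x.d = .node l e ∧ l.val = D) ∨ x.d = .wild := by
  obtain ⟨d, s⟩ := x
  cases d <;> simp only [Mem] at h
  · exact Or.inr rfl
  · exact Or.inl ⟨_, _, rfl, h⟩

theorem mem_fill {x : Idx D} (h : Mem .fill x) : x.d = .ul ∨ x.d = .ur := by
  obtain ⟨d, s⟩ := x
  cases d <;> simp only [Mem] at h
  · exact Or.inl rfl
  · exact Or.inr rfl

theorem one_node {x y : Idx D} {l l' : Fin (D + 1)} {e e' : Bool} {g g' : ℕ}
    (hx : x.d = .node l e) (hl : l.val = g) (hy : y.d = .node l' e') (hl' : l'.val = g') :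
    One x y ↔ Adj D g (nd g x.s) g' (nd g' y.s) := by
  obtain ⟨dx, sx⟩ := x
  obtain ⟨dy, sy⟩ := y
  cases hx
  cases hy
  subst hl
  subst hl'
  simp [One]

/-- A child between two rows of one node. -/
theorem child_between {g : ℕ} {x y z : Idx D} (hg : g < D) {lx ly lz : Fin (D + 1)}
    {ex ey ez : Bool} (hx : x.d = .node lx ex) (nx : lx.val = g) (hy : y.d = .node ly ey)
    (ny : ly.val = g + 1) (hz : z.d = .node lz ez) (nz : lz.val = g)
    (hsame : nd g x.s = nd g z.s) (h1 : x < y) (h2 : y < z) :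
    nd (g + 1) y.s / 2 = nd g x.s := by
  have a := zk_mono h1
  have b := zk_mono h2
  obtain ⟨dx, sx⟩ := x
  obtain ⟨dy, sy⟩ := y
  obtain ⟨dz, sz⟩ := z
  cases hx
  cases hy
  cases hz
  exact between hg nx ny nz hsame a b

/-- Final certificates: the outer slot is a leaf. -/
theorem final_leaf {r : Fin 5 → Idx D} (hr : StrictMono r) (h2 : Mem Code.fin (r 2))
    (h3 : Mem Code.fill (r 3)) : ∃ l e, (r 2).d = .node l e ∧ l.val = D := by
  rcases mem_fin_zk h2 with h | h
  · exact h
  exfalso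
  have hz := zk_mono (hr (show (2 : Fin 5) < 3 by decide))
  rcases mem_fill h3 with h' | h' <;>
  · rcases e2 : r 2 with ⟨d, s⟩
    rcases e3 : r 3 with ⟨d', s'⟩
    rw [e2] at h hz
    rw [e3] at h' hz
    cases h
    cases h'
    simp [zk] at hz <;> omega

/-- In any copy the middle row and middle column are leaves with the same slot. -/
theorem copy_changed {r c : Fin 5 → Idx D} (hr : StrictMono r) (hc : StrictMono c)
    (hp : ∀ i j, ent (r i) (c j) = pat i j) :
    ∃ e e', (r 3).d = .node (Fin.last D) e ∧ (c 3).d = .node (Fin.last D) e' ∧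
      (r 3).s = (c 3).s := by
  have hp' : ∀ i j, ent (c i) (r j) = pat i j := fun i j => by rw [ent_comm, hp, pat_symm]
  have hc1 : IsMark (c 1) := by_contra (slots_absurd hr hc hp)
  have hr1 : IsMark (r 1) := by_contra (slots_absurd hc hr hp')
  obtain ⟨t, nc, hu, er0, er1⟩ := certified hr hp hr1 hc1
  obtain ⟨t', nr, -, ec0, ec1⟩ := certified hc hp' hc1 hr1
  have ht' : t' = flipC t := hu _ _ ec1
  subst ht'
  have colOut : ∀ j : Fin 5, 2 ≤ j → pat 0 j = true → Mem (code false t) (c j) := fun j hj h =>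
    (one_mark_slot er0 (nc j hj)).1 (ent_true.1 (by rw [hp, h]))
  have colMid := (one_mark_slot er1 (nc 3 (by decide))).1 (ent_true.1 (by rw [hp]; decide))
  have rowOut : ∀ j : Fin 5, 2 ≤ j → pat 0 j = true → Mem (code false (flipC t)) (r j) :=
    fun j hj h => (one_mark_slot ec0 (nr j hj)).1 (ent_true.1 (by rw [hp', h]))
  have rowMid := (one_mark_slot ec1 (nr 3 (by decide))).1 (ent_true.1 (by rw [hp']; decide))
  have c2 := colOut 2 le_rfl (by decide)
  have c4 := colOut 4 (by decide) (by decide)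
  have r2 := rowOut 2 le_rfl (by decide)
  have r4 := rowOut 4 (by decide) (by decide)
  have o22 : One (r 2) (c 2) := ent_true.1 (by rw [hp]; decide)
  have o23 : One (r 2) (c 3) := ent_true.1 (by rw [hp]; decide)
  have o43 : One (r 4) (c 3) := ent_true.1 (by rw [hp]; decide)
  have o42 : One (r 4) (c 2) := ent_true.1 (by rw [hp]; decide)
  have o24 : One (r 2) (c 4) := ent_true.1 (by rw [hp]; decide)
  have o32 : One (r 3) (c 2) := ent_true.1 (by rw [hp]; decide)
  have o34 : One (r 3) (c 4) := ent_true.1 (by rw [hp]; decide)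
  have n33 : ¬ One (r 3) (c 3) := ent_false.1 (by rw [hp]; decide)
  have same : ∀ {g : ℕ} {i i' : ℕ}, Adj D g i g i' → i = i' := by
    intro g i i' h
    rcases h with ⟨-, h, -⟩ | ⟨h, -⟩ | ⟨h, -⟩ <;> omega
  rcases t with _ | ⟨m, g, σ⟩
  · exfalso
    simp only [flipC, code] at c2 r2 colMid rowMid
    obtain ⟨l, e, hl, nl⟩ := final_leaf hr r2 rowMid
    obtain ⟨k, f, hk, nk⟩ := final_leaf hc c2 colMid
    have h := (one_node hl nl hk nk).1 o22
    rcases h with ⟨-, -, h⟩ | ⟨h, -⟩ | ⟨h, -⟩ <;> omega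
  · fin_cases m <;>
      simp only [flipC, code, swapK, Matrix.cons_val_zero, Matrix.cons_val_one, Matrix.cons_val,
        Fin.isValue, Fin.reduceFinMk, Fin.reduceEq, Fin.zero_eta, Fin.mk_one, if_true, if_false]
        at c2 c4 r2 r4 colMid rowMid
    · exfalso
      obtain ⟨k, f, hk, nk, hg⟩ := mem_lev c2
      obtain ⟨k4, f4, hk4, nk4, -⟩ := mem_lev c4
      obtain ⟨k3, f3, hk3, nk3, -⟩ := mem_mid colMid
      obtain ⟨l, e, hl, nl, -⟩ := mem_lev rowMid
      have a := same ((one_node hl nl hk nk).1 o32)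
      have b := same ((one_node hl nl hk4 nk4).1 o34)
      have par := child_between hg hk nk hk3 nk3 hk4 nk4 (a.symm.trans b)
        (hc (by decide)) (hc (by decide))
      exact n33 ((one_node hl nl hk3 nk3).2 (Or.inr (Or.inl ⟨rfl, by rw [par, a]⟩)))
    · exfalso
      obtain ⟨l, e, hl, nl, hg⟩ := mem_lev r2
      obtain ⟨l4, e4, hl4, nl4, -⟩ := mem_lev r4
      obtain ⟨l3, e3, hl3, nl3, -⟩ := mem_mid rowMid
      obtain ⟨k, f, hk, nk, -⟩ := mem_lev colMid
      have a := same ((one_node hl nl hk nk).1 o23)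
      have b := same ((one_node hl4 nl4 hk nk).1 o43)
      have par := child_between hg hl nl hl3 nl3 hl4 nl4 (a.trans b.symm)
        (hr (by decide)) (hr (by decide))
      exact n33 ((one_node hl3 nl3 hk nk).2 (Or.inr (Or.inr ⟨rfl, by rw [par, a]⟩)))
    · obtain ⟨l, e, hl, nl, hg⟩ := mem_lev r2
      obtain ⟨l4, e4, hl4, nl4, -⟩ := mem_lev r4
      obtain ⟨l3, e3, hl3, nl3, sr⟩ := mem_mid rowMid
      obtain ⟨k, f, hk, nk, -⟩ := mem_lev c2
      obtain ⟨k4, f4, hk4, nk4, -⟩ := mem_lev c4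
      obtain ⟨k3, f3, hk3, nk3, sc⟩ := mem_mid colMid
      have a := same ((one_node hl nl hk nk).1 o22)
      have b := same ((one_node hl4 nl4 hk nk).1 o42)
      have d := same ((one_node hl nl hk4 nk4).1 o24)
      have pr := child_between hg hl nl hl3 nl3 hl4 nl4 (a.trans b.symm)
        (hr (by decide)) (hr (by decide))
      have pc := child_between hg hk nk hk3 nk3 hk4 nk4 (a.symm.trans d)
        (hc (by decide)) (hc (by decide))
      have hsd := sr.trans sc.symm
      rw [decide_eq_decide] at hsd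
      have heq : nd (g.val + 1) (r 3).s = nd (g.val + 1) (c 3).s := by omega
      by_cases hlast : g.val + 1 < D
      · exact absurd ((one_node hl3 nl3 hk3 nk3).2 (Or.inl ⟨rfl, heq, hlast⟩)) n33
      · have hD : g.val + 1 = D := by omega
        obtain rfl : l3 = Fin.last D := Fin.ext (by simp; omega)
        obtain rfl : k3 = Fin.last D := Fin.ext (by simp; omega)
        refine ⟨e3, f3, hl3, hk3, Fin.ext ?_⟩
        have h := heq
        rw [hD, nd_last, nd_last] at h
        exact h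

end Vale.Agent.P037
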