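import Mathlib

/-!
Ordered copies and distance from freeness for binary matrices.
-/

namespace Vale.Agent.P037

/-- An ordered copy of `H` in `A`: increasing rows and increasing columns with equal entries. -/
def IsCopy {n k : ℕ} (H : Fin k → Fin k → Bool) (A : Fin n → Fin n → Bool)
    (rc : (Fin k → Fin n) × (Fin k → Fin n)) : Prop :=
  StrictMono rc.1 ∧ StrictMono rc.2 ∧ ∀ i j, A (rc.1 i) (rc.2 j) = H i j

open Classical in
/-- Number of ordered copies. -/
noncomputable def copyCount {n k : ℕ} (H : Fin k → Fin k → Bool) (A : Fin n → Fin n → Bool) : ℕ :=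
  (Finset.univ.filter (fun rc => IsCopy H A rc)).card

/-- No ordered copy. -/
def IsFree {n k : ℕ} (H : Fin k → Fin k → Bool) (A : Fin n → Fin n → Bool) : Prop :=
  ∀ rc, ¬ IsCopy H A rc

/-- Normalised distance from the set of free matrices. -/
noncomputable def distFree {n k : ℕ} (H : Fin k → Fin k → Bool) (A : Fin n → Fin n → Bool) : ℝ :=
  sInf {d : ℝ | ∃ B : Fin n → Fin n → Bool, IsFree H B ∧
    d = (Finset.univ.filter (fun p : Fin n × Fin n => A p.1 p.2 ≠ B p.1 p.2)).card / (n : ℝ) ^ 2}

end Vale.Agent.P037
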