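import Mathlib
import Vale.Agent.P037.Tree

/-!
Every free matrix differs from the tree matrix on a polynomially large set.
-/

namespace Vale.Agent.P037

open Finset

variable {D : ℕ}

theorem ent_one {x y : Idx D} : ent x y = true ↔ One x y := by simp [ent]

/-- A sample: a leaf, a slot for global rows, a slot for global columns. -/
abbrev Sample (D : ℕ) := Fin (2 ^ D) × Fin (2 ^ D) × Fin (2 ^ D)

/-- A kind whose representative follows the sampled leaf. -/
def Deep : Desc D → Prop
  | .node g _ => g.val ≠ 0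
  | _ => False

instance : DecidablePred (Deep (D := D)) := fun d => by
  cases d <;> unfold Deep <;> infer_instance

/-- Sampled row of a kind. -/
def srow (ω : Sample D) (d : Desc D) : Idx D := ⟨d, if Deep d then ω.1 else ω.2.1⟩

/-- Sampled column of a kind. -/
def scol (ω : Sample D) (d : Desc D) : Idx D := ⟨d, if Deep d then ω.1 else ω.2.2⟩

theorem nd_sample (ω : Sample D) (g : Fin (D + 1)) (e : Bool) :
    nd g.val (srow ω (.node g e)).s = nd g.val ω.1 ∧
      nd g.val (scol ω (.node g e)).s = nd g.val ω.1 := by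
  by_cases h : g.val = 0
  · rw [h]; simp [nd_zero]
  · simp [srow, scol, Deep, h]

/-- The agreement of a matrix with the tree matrix on the sampled cells that are not both deep. -/
def Agree (B : Idx D → Idx D → Bool) (ω : Sample D) : Prop :=
  ∀ d d', ¬ (Deep d ∧ Deep d') → B (srow ω d) (scol ω d') = ent (srow ω d) (scol ω d')

theorem changed_ge (B : Idx D → Idx D → Bool) (h : ∀ ω, ¬ Agree B ω) :
    2 ^ D * 2 ^ D ≤
      ((univ : Finset (Idx D × Idx D)).filter (fun p => B p.1 p.2 ≠ ent p.1 p.2)).card := by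
  classical
  set T := (univ : Finset (Idx D × Idx D)).filter (fun p => B p.1 p.2 ≠ ent p.1 p.2) with hT
  simp only [Agree, not_forall] at h
  choose d d' hd hne using h
  let free : Sample D → Fin (2 ^ D) := fun ω =>
    if Deep (d ω) then ω.2.1 else if Deep (d' ω) then ω.2.2 else ω.1
  let f : Sample D → (Idx D × Idx D) × Fin (2 ^ D) := fun ω =>
    ((srow ω (d ω), scol ω (d' ω)), free ω)
  have hf : Set.MapsTo f ((univ : Finset (Sample D)) : Set (Sample D))
      ((T ×ˢ (univ : Finset (Fin (2 ^ D))) : Finset ((Idx D × Idx D) × Fin (2 ^ D))) :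
        Set ((Idx D × Idx D) × Fin (2 ^ D))) := fun ω _ =>
    Finset.mem_coe.2 (mem_product.2 ⟨mem_filter.2 ⟨mem_univ _, hne ω⟩, mem_univ _⟩)
  have hinj : Set.InjOn f (univ : Finset (Sample D)) := by
    rintro ⟨x, a, b⟩ - ⟨x', a', b'⟩ - he
    simp only [f, free, Prod.mk.injEq, srow, scol, Idx.mk.injEq] at he
    obtain ⟨⟨⟨e1, e2⟩, e3, e4⟩, e5⟩ := he
    rw [← e1] at e2 e5
    rw [← e3] at e4 e5
    by_cases h1 : Deep (d (x, a, b))
    · have h2 : ¬ Deep (d' (x, a, b)) := fun h2 => hd (x, a, b) ⟨h1, h2⟩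
      simp only [h1, h2, if_true, if_false] at e2 e4 e5
      rw [e2, e4, e5]
    · by_cases h2 : Deep (d' (x, a, b))
      · simp only [h1, h2, if_true, if_false] at e2 e4 e5
        rw [e2, e4, e5]
      · simp only [h1, h2, if_false] at e2 e4 e5
        rw [e2, e4, e5]
  have hc := card_le_card_of_injOn f hf hinj
  simp only [card_univ, card_product, Fintype.card_prod, Fintype.card_fin] at hc
  exact Nat.le_of_mul_le_mul_right (by linarith) (Nat.two_pow_pos D)

/-- An increasing five tuple. -/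
theorem tuple_mono {a b c d e : Idx D} (h1 : zk a < zk b) (h2 : zk b < zk c) (h3 : zk c < zk d)
    (h4 : zk d < zk e) : StrictMono ![a, b, c, d, e] := by
  refine Fin.strictMono_iff_lt_succ.2 fun i => ?_
  fin_cases i <;> exact lt_of_zk (by simpa)

theorem child_zk (ω : Sample D) {g : ℕ} (hg : g < D) (e e' e'' : Bool) :
    let P := fun (h : Bool) (l : Fin (D + 1)) => zk (srow ω (.node l h))
    P false ⟨g, by omega⟩ < P e ⟨g + 1, by omega⟩ ∧ P e ⟨g + 1, by omega⟩ < P true ⟨g, by omega⟩ ∧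
      zk (scol ω (.node ⟨g, by omega⟩ false)) < zk (scol ω (.node ⟨g + 1, by omega⟩ e')) ∧
      zk (scol ω (.node ⟨g + 1, by omega⟩ e'')) < zk (scol ω (.node ⟨g, by omega⟩ true)) := by
  have hs := nd_succ hg ω.1
  set I := nd (g + 1) ω.1 with hI
  set W := big D * 2 ^ (D - (g + 1)) with hW
  have e2 : big D * 2 ^ (D - g) = 2 * W := by
    rw [hW, show D - g = D - (g + 1) + 1 by omega, pow_succ]; ring
  have hWb : 2 * D + 4 ≤ W :=
    le_trans (by unfold big; omega) (Nat.le_mul_of_pos_right _ (Nat.two_pow_pos _))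
  have key : ∀ (z z' : Fin (2 ^ D)), nd g z = nd g ω.1 → nd (g + 1) z' = I → ∀ h : Bool,
      zk (⟨.node ⟨g, by omega⟩ false, z⟩ : Idx D) < zk (⟨.node ⟨g + 1, by omega⟩ h, z'⟩ : Idx D) ∧
      zk (⟨.node ⟨g + 1, by omega⟩ h, z'⟩ : Idx D) < zk (⟨.node ⟨g, by omega⟩ true, z⟩ : Idx D) := by
    intro z z' hz hz' h
    have hP : nd g ω.1 * (2 * W) ≤ I * W := by
      rw [← hs, ← mul_assoc]; exact Nat.mul_le_mul_right W (show I / 2 * 2 ≤ I by omega)
    have hQ : (I + 1) * W ≤ (nd g ω.1 + 1) * (2 * W) := by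
      rw [← hs, ← mul_assoc (I / 2 + 1) 2 W]
      exact Nat.mul_le_mul_right W (show I + 1 ≤ (I / 2 + 1) * 2 by omega)
    have hIW : (I + 1) * W = I * W + W := Nat.succ_mul I W
    cases h <;>
    · simp only [zk, if_true, if_false, Bool.false_eq_true, hz, hz', e2, ← hW]
      omega
  have hr := fun (l : Fin (D + 1)) (h : Bool) => (nd_sample ω l h).1
  have hc := fun (l : Fin (D + 1)) (h : Bool) => (nd_sample ω l h).2
  have sf : ∀ (l : Fin (D + 1)) (h h' : Bool),
      (srow ω (.node l h)).s = (srow ω (.node l h')).s ∧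
        (scol ω (.node l h)).s = (scol ω (.node l h')).s := fun l h h' => ⟨rfl, rfl⟩
  refine ⟨?_, ?_, ?_, ?_⟩
  · exact (key _ _ (hr ⟨g, by omega⟩ false) (hr ⟨g + 1, by omega⟩ e) e).1
  · exact (key _ _ (hr ⟨g, by omega⟩ true) (hr ⟨g + 1, by omega⟩ e) e).2
  · exact (key _ _ (hc ⟨g, by omega⟩ false) (hc ⟨g + 1, by omega⟩ e') e').1
  · exact (key _ _ (hc ⟨g, by omega⟩ true) (hc ⟨g + 1, by omega⟩ e'') e'').2

theorem zk_srow (ω : Sample D) (t : Cert D) :
    zk (srow ω (.mark false t)) = 0 ∧ zk (srow ω (.mark true t)) = 1 ∧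
      zk (srow ω .ul) = 2 ∧ zk (srow ω .ur) = 4 + big D * 2 ^ D ∧
      zk (srow ω .wild) = 5 + big D * 2 ^ D := by
  simp [srow, zk]

theorem zk_scol (ω : Sample D) (t : Cert D) :
    zk (scol ω (.mark false t)) = 0 ∧ zk (scol ω (.mark true t)) = 1 ∧
      zk (scol ω .ul) = 2 ∧ zk (scol ω .ur) = 4 + big D * 2 ^ D ∧
      zk (scol ω .wild) = 5 + big D * 2 ^ D := by
  simp [scol, zk]

theorem slot_not_mark {x : Idx D} (h : 2 ≤ zk x) (r : Bool) (t : Cert D) : x.d ≠ .mark r t := by
  obtain ⟨d, s⟩ := x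
  rintro rfl
  cases r <;> simp [zk] at h

theorem ent_mark_slot {x y : Idx D} {r : Bool} {t : Cert D} (hx : x.d = .mark r t) (hy : 2 ≤ zk y) :
    (ent x y = true ↔ Mem (code r t) y) ∧ (ent y x = true ↔ Mem (code r t) y) := by
  rw [ent_comm y x, and_self]
  obtain ⟨dx, sx⟩ := x
  obtain ⟨dy, sy⟩ := y
  cases hx
  simp only [ent, decide_eq_true_eq]
  cases dy with
  | mark r' t' => exact absurd rfl (slot_not_mark hy r' t')
  | _ => simp [One]

/-- Slots of the right classes whose nine cells fit the pattern complete a copy. -/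
theorem certified_copy (B : Idx D → Idx D → Bool)
    (hB : ∀ r c : Fin 5 → Idx D, StrictMono r → StrictMono c →
      ¬ ∀ i j, B (r i) (c j) = pat i j)
    (ω : Sample D) (hA : Agree B ω) (t : Cert D) {R₀ R₁ R₂ C₀ C₁ C₂ : Desc D}
    (or₀ : 2 ≤ zk (srow ω R₀)) (or₁ : zk (srow ω R₀) < zk (srow ω R₁))
    (or₂ : zk (srow ω R₁) < zk (srow ω R₂)) (oc₀ : 2 ≤ zk (scol ω C₀))
    (oc₁ : zk (scol ω C₀) < zk (scol ω C₁)) (oc₂ : zk (scol ω C₁) < zk (scol ω C₂))
    (fR : Mem (code false (flipC t)) (srow ω R₀) ∧ ¬ Mem (code false (flipC t)) (srow ω R₁) ∧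
      Mem (code false (flipC t)) (srow ω R₂) ∧ ¬ Mem (code true (flipC t)) (srow ω R₀) ∧
      Mem (code true (flipC t)) (srow ω R₁) ∧ ¬ Mem (code true (flipC t)) (srow ω R₂))
    (fC : Mem (code false t) (scol ω C₀) ∧ ¬ Mem (code false t) (scol ω C₁) ∧
      Mem (code false t) (scol ω C₂) ∧ ¬ Mem (code true t) (scol ω C₀) ∧
      Mem (code true t) (scol ω C₁) ∧ ¬ Mem (code true t) (scol ω C₂))
    (s00 : B (srow ω R₀) (scol ω C₀) = true) (s01 : B (srow ω R₀) (scol ω C₁) = true)
    (s02 : B (srow ω R₀) (scol ω C₂) = true) (s10 : B (srow ω R₁) (scol ω C₀) = true)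
    (s11 : B (srow ω R₁) (scol ω C₁) = false) (s12 : B (srow ω R₁) (scol ω C₂) = true)
    (s20 : B (srow ω R₂) (scol ω C₀) = true) (s21 : B (srow ω R₂) (scol ω C₁) = true)
    (s22 : B (srow ω R₂) (scol ω C₂) = true) : False := by
  have mm : ∀ r r', B (srow ω (.mark r t)) (scol ω (.mark r' (flipC t))) = true := fun r r' => by
    rw [hA (.mark r t) _ (fun h => h.1)]; simp [ent, One, srow, scol]
  have mT : ∀ r d, 2 ≤ zk (scol ω d) → Mem (code r t) (scol ω d) →
      B (srow ω (.mark r t)) (scol ω d) = true := fun r d h hm => by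
    rw [hA (.mark r t) _ (fun h => h.1)]; exact (ent_mark_slot (x := srow ω (.mark r t)) rfl h).1.2 hm
  have mF : ∀ r d, 2 ≤ zk (scol ω d) → ¬ Mem (code r t) (scol ω d) →
      B (srow ω (.mark r t)) (scol ω d) = false := fun r d h hm => by
    rw [hA (.mark r t) _ (fun h => h.1), Bool.eq_false_iff]
    exact fun he => hm ((ent_mark_slot (x := srow ω (.mark r t)) rfl h).1.1 he)
  have nT : ∀ r d, 2 ≤ zk (srow ω d) → Mem (code r (flipC t)) (srow ω d) →
      B (srow ω d) (scol ω (.mark r (flipC t))) = true := fun r d h hm => by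
    rw [hA _ (.mark r (flipC t)) (fun h => h.2)]
    exact (ent_mark_slot (x := scol ω (.mark r (flipC t))) rfl h).2.2 hm
  have nF : ∀ r d, 2 ≤ zk (srow ω d) → ¬ Mem (code r (flipC t)) (srow ω d) →
      B (srow ω d) (scol ω (.mark r (flipC t))) = false := fun r d h hm => by
    rw [hA _ (.mark r (flipC t)) (fun h => h.2), Bool.eq_false_iff]
    exact fun he => hm ((ent_mark_slot (x := scol ω (.mark r (flipC t))) rfl h).2.1 he)
  have a := zk_srow ω t
  have b := zk_scol ω (flipC t)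
  have r₁ : 2 ≤ zk (srow ω R₁) := by omega
  have r₂ : 2 ≤ zk (srow ω R₂) := by omega
  have c₁ : 2 ≤ zk (scol ω C₁) := by omega
  have c₂ : 2 ≤ zk (scol ω C₂) := by omega
  refine hB ![srow ω (.mark false t), srow ω (.mark true t), srow ω R₀, srow ω R₁, srow ω R₂]
    ![scol ω (.mark false (flipC t)), scol ω (.mark true (flipC t)), scol ω C₀, scol ω C₁,
      scol ω C₂]
    (tuple_mono (by omega) (by omega) or₁ or₂) (tuple_mono (by omega) (by omega) oc₁ oc₂) ?_
  obtain ⟨u0, u1, u2, u3, u4, u5⟩ := fR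
  obtain ⟨v0, v1, v2, v3, v4, v5⟩ := fC
  intro i j
  fin_cases i <;> fin_cases j
  · exact mm _ _
  · exact mm _ _
  · exact mT _ _ oc₀ v0
  · exact mF _ _ c₁ v1
  · exact mT _ _ c₂ v2
  · exact mm _ _
  · exact mm _ _
  · exact mF _ _ oc₀ v3
  · exact mT _ _ c₁ v4
  · exact mF _ _ c₂ v5
  · exact nT _ _ or₀ u0
  · exact nF _ _ or₀ u3
  · exact s00
  · exact s01
  · exact s02
  · exact nF _ _ r₁ u1
  · exact nT _ _ r₁ u4
  · exact s10
  · exact s11
  · exact s12
  · exact nT _ _ r₂ u2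
  · exact nF _ _ r₂ u5
  · exact s20
  · exact s21
  · exact s22

/-- Agreement on a sample forces a copy. -/
theorem not_agree (hD : 0 < D) (B : Idx D → Idx D → Bool)
    (hB : ∀ r c : Fin 5 → Idx D, StrictMono r → StrictMono c →
      ¬ ∀ i j, B (r i) (c j) = pat i j) (ω : Sample D) : ¬ Agree B ω := by
  intro hA
  let P : (g : ℕ) → g ≤ D → Bool → Desc D := fun g h e => .node ⟨g, Nat.lt_succ_of_le h⟩ e
  have cp := certified_copy B hB ω hA
  have forced : ∀ g (h : g ≤ D), ∀ e e', B (srow ω (P g h e)) (scol ω (P g h e')) = true := by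
    intro g
    induction g with
    | zero =>
      intro h e e'
      rw [hA (P 0 h e) _ (fun h => h.1 rfl)]
      simp [ent_one, One, srow, scol, P, Adj, nd_zero, hD]
    | succ g ih =>
      intro hg
      have hgD : g < D := hg
      have hg0 : g ≤ D := hgD.le
      have ih := ih hg0
      let gl : Fin D := ⟨g, hgD⟩
      let σ : Bool := decide (nd (g + 1) ω.1 % 2 = 1)
      have rl : ∀ e, Mem (.lev g) (srow ω (P g hg0 e)) := fun e => ⟨rfl, hgD⟩
      have cl : ∀ e, Mem (.lev g) (scol ω (P g hg0 e)) := fun e => ⟨rfl, hgD⟩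
      have rl' : ∀ e, ¬ Mem (.lev g) (srow ω (P (g + 1) hg e)) := fun e h => by
        have h1 : g + 1 = g := h.1
        omega
      have cl' : ∀ e, ¬ Mem (.lev g) (scol ω (P (g + 1) hg e)) := fun e h => by
        have h1 : g + 1 = g := h.1
        omega
      have rm : ∀ e, Mem (.mid g σ) (srow ω (P (g + 1) hg e)) := fun e => ⟨rfl, by
        simp [srow, P, Deep, σ]⟩
      have cm : ∀ e, Mem (.mid g σ) (scol ω (P (g + 1) hg e)) := fun e => ⟨rfl, by
        simp [scol, P, Deep, σ]⟩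
      have rm' : ∀ e, ¬ Mem (.mid g σ) (srow ω (P g hg0 e)) := fun e h => by
        have h1 : g = g + 1 := h.1
        omega
      have cm' : ∀ e, ¬ Mem (.mid g σ) (scol ω (P g hg0 e)) := fun e h => by
        have h1 : g = g + 1 := h.1
        omega
      have hz := fun e e' e'' => child_zk ω hgD e e' e''
      have nr : ∀ e, 3 ≤ zk (srow ω (P g hg0 e)) ∧ zk (srow ω (P g hg0 e)) < 3 + big D * 2 ^ D :=
        fun e => ⟨zk_node_ge _ _ _, zk_node_lt _ _ _⟩
      have nc : ∀ e, 3 ≤ zk (scol ω (P g hg0 e)) ∧ zk (scol ω (P g hg0 e)) < 3 + big D * 2 ^ D :=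
        fun e => ⟨zk_node_ge _ _ _, zk_node_lt _ _ _⟩
      have zr := zk_srow ω (none : Cert D)
      have zc := zk_scol ω (none : Cert D)
      have fc : ∀ k h e, B (srow ω (P k h e)) (scol ω .ul) = true ∧
          B (srow ω (P k h e)) (scol ω .ur) = true := fun k h e => by
        constructor
        · rw [hA _ Desc.ul (fun h => h.2)]; simp [ent_one, One, srow, scol, P]
        · rw [hA _ Desc.ur (fun h => h.2)]; simp [ent_one, One, srow, scol, P]
      have fr : ∀ k h e, B (srow ω .ul) (scol ω (P k h e)) = true ∧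
          B (srow ω .ur) (scol ω (P k h e)) = true := fun k h e => by
        constructor
        · rw [hA Desc.ul _ (fun h => h.1)]; simp [ent_one, One, srow, scol, P]
        · rw [hA Desc.ur _ (fun h => h.1)]; simp [ent_one, One, srow, scol, P]
      have stepA : ∀ e e', B (srow ω (P (g + 1) hg e)) (scol ω (P g hg0 e')) = true := by
        intro e e'
        by_contra hf
        rw [Bool.not_eq_true] at hf
        exact cp (some (1, gl, σ)) (R₀ := P g hg0 false) (R₁ := P (g + 1) hg e) (R₂ := P g hg0 true)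
          (C₀ := .ul) (C₁ := P g hg0 e') (C₂ := .ur)
          (by linarith [(nr false).1]) (hz e e e).1 (hz e e e).2.1
          (by omega) (by linarith [(nc e').1]) (by linarith [(nc e').2])
          ⟨rl _, rl' e, rl _, rm' _, rm e, rm' _⟩
          ⟨trivial, id, trivial, id, cl e', id⟩
          (fc g hg0 _).1 (ih _ _) (fc g hg0 _).2 (fc (g + 1) hg _).1 hf (fc (g + 1) hg _).2
          (fc g hg0 _).1 (ih _ _) (fc g hg0 _).2
      have stepA' : ∀ e e', B (srow ω (P g hg0 e')) (scol ω (P (g + 1) hg e)) = true := by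
        intro e e'
        by_contra hf
        rw [Bool.not_eq_true] at hf
        exact cp (some (0, gl, σ)) (C₀ := P g hg0 false) (C₁ := P (g + 1) hg e) (C₂ := P g hg0 true)
          (R₀ := .ul) (R₁ := P g hg0 e') (R₂ := .ur)
          (by omega) (by linarith [(nr e').1]) (by linarith [(nr e').2])
          (by linarith [(nc false).1]) (hz e e e).2.2.1 (hz e e e).2.2.2
          ⟨trivial, id, trivial, id, rl e', id⟩
          ⟨cl _, cl' e, cl _, cm' _, cm e, cm' _⟩
          (fr g hg0 _).1 (fr (g + 1) hg _).1 (fr g hg0 _).1 (ih _ _) hf (ih _ _)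
          (fr g hg0 _).2 (fr (g + 1) hg _).2 (fr g hg0 _).2
      intro e e'
      by_contra hf
      rw [Bool.not_eq_true] at hf
      exact cp (some (2, gl, σ)) (R₀ := P g hg0 false) (R₁ := P (g + 1) hg e) (R₂ := P g hg0 true)
        (C₀ := P g hg0 false) (C₁ := P (g + 1) hg e') (C₂ := P g hg0 true)
        (by linarith [(nr false).1]) (hz e e e).1 (hz e e e).2.1
        (by linarith [(nc false).1]) (hz e e' e').2.2.1 (hz e e' e').2.2.2
        ⟨rl _, rl' e, rl _, rm' _, rm e, rm' _⟩ ⟨cl _, cl' e', cl _, cm' _, cm e', cm' _⟩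
        (ih _ _) (stepA' _ _) (ih _ _) (stepA _ _) hf (stepA _ _) (ih _ _) (stepA' _ _) (ih _ _)
  have zr := zk_srow ω (none : Cert D)
  have zc := zk_scol ω (none : Cert D)
  have hl : 3 ≤ zk (srow ω (P D le_rfl false)) ∧
      zk (srow ω (P D le_rfl false)) < 3 + big D * 2 ^ D := ⟨zk_node_ge _ _ _, zk_node_lt _ _ _⟩
  have hl' : 3 ≤ zk (scol ω (P D le_rfl false)) ∧
      zk (scol ω (P D le_rfl false)) < 3 + big D * 2 ^ D := ⟨zk_node_ge _ _ _, zk_node_lt _ _ _⟩
  have gl : ∀ d d' : Desc D, ¬ (Deep d ∧ Deep d') →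
      B (srow ω d) (scol ω d') = ent (srow ω d) (scol ω d') := hA
  exact cp none (R₀ := P D le_rfl false) (R₁ := .ur) (R₂ := .wild)
    (C₀ := P D le_rfl false) (C₁ := .ur) (C₂ := .wild)
    (by omega) (by omega) (by omega) (by omega) (by omega) (by omega)
    ⟨rfl, id, trivial, id, trivial, id⟩ ⟨rfl, id, trivial, id, trivial, id⟩
    (forced D le_rfl _ _)
    (by rw [gl _ Desc.ur (fun h => h.2)]; simp [ent_one, One, srow, scol, P])
    (by rw [gl _ Desc.wild (fun h => h.2)]; simp [ent_one, One, srow, scol, P])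
    (by rw [gl Desc.ur _ (fun h => h.1)]; simp [ent_one, One, srow, scol, P])
    (by rw [gl Desc.ur _ (fun h => h.1), Bool.eq_false_iff]; simp [ent_one, One, srow, scol, P])
    (by rw [gl Desc.ur _ (fun h => h.1)]; simp [ent_one, One, srow, scol, P])
    (by rw [gl Desc.wild _ (fun h => h.1)]; simp [ent_one, One, srow, scol, P])
    (by rw [gl Desc.wild _ (fun h => h.1)]; simp [ent_one, One, srow, scol, P])
    (by rw [gl Desc.wild _ (fun h => h.1)]; simp [ent_one, One, srow, scol, P])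

end Vale.Agent.P037
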