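import Mathlib
import Vale.Agent.P037.Defs
import Vale.Agent.P037.Copies
import Vale.Agent.P037.Far

/-!
The tree matrix on an initial segment: far from free, with few copies.
-/

namespace Vale.Agent.P037

open Finset

/-- The side length. -/
def side (D : ℕ) : ℕ := (14 * D + 7) * 2 ^ D

/-- Order preserving enumeration of the index type. -/
noncomputable def enum (D : ℕ) : Fin (side D) ≃o Idx D :=
  monoEquivOfFin (Idx D) (card_idx D)

/-- The hard matrix. -/
noncomputable def hard (D : ℕ) : Fin (side D) → Fin (side D) → Bool :=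
  fun i j => ent (enum D i) (enum D j)

theorem hard_far {D : ℕ} (hD : 0 < D) (B : Fin (side D) → Fin (side D) → Bool)
    (hB : IsFree pat B) :
    2 ^ D * 2 ^ D ≤
      (univ.filter (fun p : Fin (side D) × Fin (side D) => hard D p.1 p.2 ≠ B p.1 p.2)).card := by
  classical
  set e := enum D with he
  let B' : Idx D → Idx D → Bool := fun x y => B (e.symm x) (e.symm y)
  have hfree : ∀ r c : Fin 5 → Idx D, StrictMono r → StrictMono c →
      ¬ ∀ i j, B' (r i) (c j) = pat i j := fun r c hr hc h =>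
    hB (e.symm ∘ r, e.symm ∘ c) ⟨e.symm.strictMono.comp hr, e.symm.strictMono.comp hc, h⟩
  refine (changed_ge B' (not_agree hD B' hfree)).trans ?_
  refine card_le_card_of_injOn (fun p => (e.symm p.1, e.symm p.2)) ?_ ?_
  · intro p hp
    simp only [mem_coe, mem_filter, mem_univ, true_and] at hp ⊢
    simp only [hard, ← he, OrderIso.apply_symm_apply]
    exact Ne.symm hp
  · rintro ⟨a, b⟩ - ⟨a', b'⟩ - h
    simp only [Prod.mk.injEq, EmbeddingLike.apply_eq_iff_eq] at h ⊢
    exact h

theorem hard_copies (D : ℕ) : copyCount pat (hard D) ≤ 4 * 2 ^ D * side D ^ 8 := by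
  classical
  set e := enum D with he
  let T := (Fin (2 ^ D) × Bool × Bool) × (Fin 4 → Fin (side D)) × (Fin 4 → Fin (side D))
  let f : T → (Fin 5 → Fin (side D)) × (Fin 5 → Fin (side D)) := fun t =>
    (Fin.insertNth 3 (e.symm ⟨.node (Fin.last D) t.1.2.1, t.1.1⟩) t.2.1,
      Fin.insertNth 3 (e.symm ⟨.node (Fin.last D) t.1.2.2, t.1.1⟩) t.2.2)
  unfold copyCount
  refine (card_le_card (t := (univ : Finset T).image f) ?_).trans ?_
  · rintro ⟨r, c⟩ h
    obtain ⟨hr, hc, h⟩ := (mem_filter.1 h).2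
    obtain ⟨a, b, ha, hb, hs⟩ := copy_changed (e.strictMono.comp hr) (e.strictMono.comp hc) h
    refine mem_image.2 ⟨(((e (r 3)).s, a, b), Fin.removeNth 3 r, Fin.removeNth 3 c), mem_univ _, ?_⟩
    have e1 : (⟨.node (Fin.last D) a, (e (r 3)).s⟩ : Idx D) = e (r 3) := by
      simp only [Function.comp_apply] at ha
      rcases h3 : e (r 3) with ⟨d, s⟩
      rw [h3] at ha
      simp only at ha
      rw [ha]
    have e2 : (⟨.node (Fin.last D) b, (e (r 3)).s⟩ : Idx D) = e (c 3) := by
      simp only [Function.comp_apply] at hb hs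
      rw [hs]
      rcases h3 : e (c 3) with ⟨d, s⟩
      rw [h3] at hb
      simp only at hb
      rw [hb]
    simp only [f, e1, e2, OrderIso.symm_apply_apply, Fin.insertNth_self_removeNth]
  · refine card_image_le.trans ?_
    simp only [T, card_univ, Fintype.card_prod, Fintype.card_fun, Fintype.card_fin, Fintype.card_bool]
    exact le_of_eq (by ring)

theorem exists_free {n : ℕ} : IsFree pat (fun _ _ : Fin n => false) := fun rc h => by
  have := h.2.2 0 0
  revert this
  simp [pat]

theorem dist_hard {D : ℕ} (hD : 0 < D) :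
    1 / ((14 * D + 7 : ℕ) : ℝ) ^ 2 ≤ distFree pat (hard D) := by
  refine le_csInf ⟨_, _, exists_free, rfl⟩ ?_
  rintro d ⟨B, hB, rfl⟩
  have h : ((2 ^ D * 2 ^ D : ℕ) : ℝ) ≤ _ := Nat.cast_le.2 (hard_far hD B hB)
  have hs : (0 : ℝ) < (side D : ℝ) ^ 2 := by
    have : 0 < side D := Nat.mul_pos (by omega) (Nat.two_pow_pos D)
    positivity
  rw [div_le_div_iff₀ (by positivity) hs, one_mul]
  refine le_trans (le_of_eq ?_) (mul_le_mul_of_nonneg_right h (by positivity))
  simp only [side]
  push_cast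
  ring

theorem few_copies (D : ℕ) :
    (copyCount pat (hard D) : ℝ) ≤ 4 / (2 : ℝ) ^ D * (side D : ℝ) ^ 10 := by
  have h : (copyCount pat (hard D) : ℝ) ≤ ((4 * 2 ^ D * side D ^ 8 : ℕ) : ℝ) :=
    Nat.cast_le.2 (hard_copies D)
  refine h.trans ?_
  push_cast
  have hs : ((2 : ℝ) ^ D) ^ 2 ≤ (side D : ℝ) ^ 2 := by
    refine pow_le_pow_left₀ (by positivity) ?_ 2
    simp only [side]
    push_cast
    exact le_mul_of_one_le_left (by positivity) (by linarith [(Nat.cast_nonneg D : (0:ℝ) ≤ D)])
  rw [div_mul_eq_mul_div, le_div_iff₀ (by positivity)]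
  have := mul_le_mul_of_nonneg_left hs (show (0:ℝ) ≤ 4 * (side D : ℝ) ^ 8 by positivity)
  nlinarith

end Vale.Agent.P037
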